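import Mathlib

/-!
# Record arithmetic (pure part)

A record is a `List ℕ` of `r` coefficients `< M`; it denotes the element `ev y l = ∑ l_i y^i` of any
commutative ring `A` in which `y ^ r = -1` and `(M : A) = 0`, for instance
`Rg r M = (ZMod M)[y] / (y ^ r + 1)`.
-/

set_option autoImplicit false

namespace Crest.Agent.X326.M4

open Polynomial Finset

/-! ### words modulo `M` -/

/-- addition modulo `M` of reduced words -/
def addM (M a b : ℕ) : ℕ := if a + b < M then a + b else a + b - M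

/-- subtraction modulo `M` of reduced words -/
def subM (M a b : ℕ) : ℕ := if a < b then a + M - b else a - b

/-- negation modulo `M` of a reduced word -/
def negM (M a : ℕ) : ℕ := if 0 < a then M - a else 0

/-- halving modulo an odd `M` of a reduced word -/
def halfM (M a : ℕ) : ℕ := if a % 2 = 0 then a / 2 else (a + M) / 2

/-- reduction modulo `2 ^ p - 1` of a number `< 2 ^ (3 * p)` (for `p ≥ 2`) -/
def redM (p x : ℕ) : ℕ :=
  let s := x % 2 ^ p + x / 2 ^ p % 2 ^ p + x / 2 ^ p / 2 ^ p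
  let s' := s % 2 ^ p + s / 2 ^ p
  if s' < 2 ^ p - 1 then s' else s' - (2 ^ p - 1)

theorem addM_lt {M a b : ℕ} (ha : a < M) (hb : b < M) : addM M a b < M := by
  unfold addM; split_ifs <;> omega

theorem subM_lt {M a b : ℕ} (ha : a < M) (hb : b < M) : subM M a b < M := by
  unfold subM; split_ifs <;> omega

theorem negM_lt {M a : ℕ} (ha : a < M) : negM M a < M := by
  unfold negM; split_ifs <;> omega

theorem halfM_lt {M a : ℕ} (ha : a < M) : halfM M a < M := by
  unfold halfM; split_ifs <;> omega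


theorem mod_two_pow_add_div (p x : ℕ) : x % 2 ^ p + x / 2 ^ p ≡ x [MOD 2 ^ p - 1] := by
  have h1 : 1 ≤ 2 ^ p := Nat.one_le_two_pow
  have h : x = x % 2 ^ p + x / 2 ^ p + (2 ^ p - 1) * (x / 2 ^ p) := by
    have := Nat.mod_add_div x (2 ^ p)
    obtain ⟨m, hm⟩ := Nat.exists_eq_add_of_le h1
    rw [hm] at this ⊢
    simp only [Nat.add_sub_cancel_left]
    nlinarith
  conv_rhs => rw [h]
  unfold Nat.ModEq
  rw [Nat.add_mul_mod_self_left]

theorem redM_eq_mod {p x : ℕ} (hp : 2 ≤ p) (hx : x < 2 ^ (3 * p)) : redM p x = x % (2 ^ p - 1) := by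
  have h4 : 4 ≤ 2 ^ p := by
    calc 4 = 2 ^ 2 := by norm_num
      _ ≤ 2 ^ p := Nat.pow_le_pow_right (by norm_num) hp
  have hpos : 0 < 2 ^ p := by omega
  set s := x % 2 ^ p + x / 2 ^ p % 2 ^ p + x / 2 ^ p / 2 ^ p with hs
  set s' := s % 2 ^ p + s / 2 ^ p with hs'
  have e1 : s ≡ x [MOD 2 ^ p - 1] := by
    have h1 := mod_two_pow_add_div p (x / 2 ^ p)
    have h2 := mod_two_pow_add_div p x
    rw [hs, add_assoc]
    exact (Nat.ModEq.add_left _ h1).trans h2
  have e2 : s' ≡ x [MOD 2 ^ p - 1] := (mod_two_pow_add_div p s).trans e1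
  have b1 : x / 2 ^ p / 2 ^ p < 2 ^ p := by
    rw [Nat.div_lt_iff_lt_mul hpos, Nat.div_lt_iff_lt_mul hpos]
    calc x < 2 ^ (3 * p) := hx
      _ = 2 ^ p * 2 ^ p * 2 ^ p := by rw [← pow_add, ← pow_add]; congr 1; ring
  have b2 : x % 2 ^ p < 2 ^ p := Nat.mod_lt _ hpos
  have b3 : x / 2 ^ p % 2 ^ p < 2 ^ p := Nat.mod_lt _ hpos
  have b4 : s / 2 ^ p < 3 := by
    rw [Nat.div_lt_iff_lt_mul hpos]; omega
  have b5 : s % 2 ^ p < 2 ^ p := Nat.mod_lt _ hpos
  have hred : redM p x = if s' < 2 ^ p - 1 then s' else s' - (2 ^ p - 1) := rfl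
  rw [hred, ← e2]
  split_ifs with h
  · rw [Nat.mod_eq_of_lt h]
  · rw [Nat.mod_eq_sub_mod (by omega), Nat.mod_eq_of_lt (by omega)]

theorem redM_lt {p x : ℕ} (hp : 2 ≤ p) (hx : x < 2 ^ (3 * p)) : redM p x < 2 ^ p - 1 := by
  rw [redM_eq_mod hp hx]
  have h4 : 4 ≤ 2 ^ p := by
    calc 4 = 2 ^ 2 := by norm_num
      _ ≤ 2 ^ p := Nat.pow_le_pow_right (by norm_num) hp
  exact Nat.mod_lt _ (by omega)

section cast

variable {A : Type*} [CommRing A] {M : ℕ}

theorem cast_mod (hM : (M : A) = 0) (a : ℕ) : ((a % M : ℕ) : A) = a := by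
  conv_rhs => rw [← Nat.mod_add_div a M]
  push_cast
  rw [hM]; ring

theorem cast_addM (hM : (M : A) = 0) (a b : ℕ) : ((addM M a b : ℕ) : A) = a + b := by
  unfold addM
  split_ifs with h
  · push_cast; rfl
  · rw [Nat.cast_sub (by omega), hM]; push_cast; ring

theorem cast_subM (hM : (M : A) = 0) (a : ℕ) {b : ℕ} (hb : b ≤ M) :
    ((subM M a b : ℕ) : A) = a - b := by
  unfold subM
  split_ifs with h
  · rw [Nat.cast_sub (by omega)]; push_cast; rw [hM]; ring
  · rw [Nat.cast_sub (by omega)]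

theorem cast_negM (hM : (M : A) = 0) {a : ℕ} (ha : a ≤ M) : ((negM M a : ℕ) : A) = -a := by
  unfold negM
  split_ifs with h
  · rw [Nat.cast_sub ha, hM]; ring
  · have : a = 0 := by omega
    simp [this]

theorem two_mul_cast_halfM (hM : (M : A) = 0) (hodd : M % 2 = 1) (a : ℕ) :
    2 * ((halfM M a : ℕ) : A) = a := by
  unfold halfM
  split_ifs with h
  · have : 2 * (a / 2) = a := by omega
    exact_mod_cast congrArg (Nat.cast : ℕ → A) this
  · have : 2 * ((a + M) / 2) = a + M := by omega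
    have h2 := congrArg (Nat.cast : ℕ → A) this
    push_cast at h2 ⊢
    rw [h2, hM, add_zero]

theorem cast_halfM (hM : (M : A) = 0) (hodd : M % 2 = 1) {hf : A} (hhf : 2 * hf = 1) (a : ℕ) :
    ((halfM M a : ℕ) : A) = hf * a := by
  rw [← two_mul_cast_halfM hM hodd a, ← mul_assoc, mul_comm hf, hhf, one_mul]

theorem cast_redM {p x : ℕ} (hM : ((2 ^ p - 1 : ℕ) : A) = 0) (hp : 2 ≤ p) (hx : x < 2 ^ (3 * p)) :
    ((redM p x : ℕ) : A) = x := by
  rw [redM_eq_mod hp hx, cast_mod hM]

/-- in a ring killed by an odd number, `2` is invertible -/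
theorem two_mul_half (hM : (M : A) = 0) (hodd : M % 2 = 1) :
    (2 : A) * (((M + 1) / 2 : ℕ) : A) = 1 := by
  have : 2 * ((M + 1) / 2) = M + 1 := by omega
  have h2 := congrArg (Nat.cast : ℕ → A) this
  push_cast at h2 ⊢
  rw [h2, hM, zero_add]

end cast

/-! ### records -/

/-- well-formed records: `r` coefficients, all `< M` -/
def WF (r M : ℕ) (l : List ℕ) : Prop := l.length = r ∧ ∀ c ∈ l, c < M

/-- the zero record -/
def recZero (r : ℕ) : List ℕ := List.replicate r 0

/-- sum of records -/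
def recAdd (M : ℕ) (a b : List ℕ) : List ℕ := List.zipWith (addM M) a b

/-- difference of records -/
def recSub (M : ℕ) (a b : List ℕ) : List ℕ := List.zipWith (subM M) a b

/-- negative of a record -/
def recNeg (M : ℕ) (a : List ℕ) : List ℕ := a.map (negM M)

/-- half of a record (`M` odd) -/
def recHalf (M : ℕ) (a : List ℕ) : List ℕ := a.map (halfM M)

/-- multiplication by `y ^ e` for `e ≤ r` -/
def recRot0 (M e : ℕ) (a : List ℕ) : List ℕ :=
  recNeg M (a.drop (a.length - e)) ++ a.take (a.length - e)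

/-- multiplication by `y ^ e` for `e ≤ 2 * r` -/
def recRot (M e : ℕ) (a : List ℕ) : List ℕ :=
  if e < a.length then recRot0 M e a else recNeg M (recRot0 M (e - a.length) a)

/-- multiplication by `i = y ^ (r / 2)` -/
def recMulI (M : ℕ) (a : List ℕ) : List ℕ := recRot0 M (a.length / 2) a

/-- multiplication by `2 ^ j` modulo `2 ^ p - 1`, for `j ≤ 2 * p` -/
def recShift (p j : ℕ) (a : List ℕ) : List ℕ := a.map (fun c => redM p (c * 2 ^ j))

/-- reduction of a coefficient list of length `≤ 2 * r` with entries `< 2 ^ (3 * p)` to a record -/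
def recFold (p r : ℕ) (c : List ℕ) : List ℕ :=
  recSub (2 ^ p - 1) (((c ++ List.replicate (2 * r) 0).take r).map (redM p))
    ((((c ++ List.replicate (2 * r) 0).drop r).take r).map (redM p))

section wf

variable {r M : ℕ} {a b : List ℕ}

theorem WF.len (h : WF r M a) : a.length = r := h.1

theorem WF.lt (h : WF r M a) {c : ℕ} (hc : c ∈ a) : c < M := h.2 c hc

theorem WF.getD_lt (h : WF r M a) (hM : 0 < M) (i : ℕ) : a.getD i 0 < M := by
  rw [List.getD_eq_getElem?_getD]
  rcases hi : a[i]? with _ | c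
  · exact hM
  · exact h.lt (List.mem_of_getElem? hi)

theorem WF.mono {M' : ℕ} (h : WF r M a) (hM : M ≤ M') : WF r M' a :=
  ⟨h.1, fun c hc => (h.2 c hc).trans_le hM⟩

theorem WF.zipWith {f : ℕ → ℕ → ℕ} (hf : ∀ x y, x < M → y < M → f x y < M) (ha : WF r M a)
    (hb : WF r M b) : WF r M (List.zipWith f a b) := by
  refine ⟨by simp [ha.1, hb.1], fun c hc => ?_⟩
  obtain ⟨i, hi, rfl⟩ := List.getElem_of_mem hc
  rw [List.getElem_zipWith]
  exact hf _ _ (ha.lt (List.getElem_mem _)) (hb.lt (List.getElem_mem _))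

theorem WF.map {M' : ℕ} {f : ℕ → ℕ} (hf : ∀ x, x < M → f x < M') (ha : WF r M a) :
    WF r M' (a.map f) := by
  refine ⟨by simp [ha.1], fun c hc => ?_⟩
  obtain ⟨x, hx, rfl⟩ := List.mem_map.1 hc
  exact hf x (ha.lt hx)

theorem wf_zero (hM : 0 < M) : WF r M (recZero r) :=
  ⟨by simp [recZero], fun c hc => by rw [List.eq_of_mem_replicate hc]; exact hM⟩

theorem WF.add (ha : WF r M a) (hb : WF r M b) : WF r M (recAdd M a b) :=
  WF.zipWith (fun _ _ => addM_lt) ha hb

theorem WF.sub (ha : WF r M a) (hb : WF r M b) : WF r M (recSub M a b) :=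
  WF.zipWith (fun _ _ => subM_lt) ha hb

theorem WF.neg (ha : WF r M a) : WF r M (recNeg M a) := WF.map (fun _ => negM_lt) ha

theorem WF.half (ha : WF r M a) : WF r M (recHalf M a) := WF.map (fun _ => halfM_lt) ha

theorem WF.rot0 (ha : WF r M a) (e : ℕ) : WF r M (recRot0 M e a) := by
  refine ⟨by simp [recRot0, recNeg, ha.1], fun c hc => ?_⟩
  rcases List.mem_append.1 hc with hc | hc
  · obtain ⟨x, hx, rfl⟩ := List.mem_map.1 hc
    exact negM_lt (ha.lt (List.mem_of_mem_drop hx))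
  · exact ha.lt (List.mem_of_mem_take hc)

theorem WF.rot (ha : WF r M a) (e : ℕ) : WF r M (recRot M e a) := by
  unfold recRot
  split_ifs
  · exact ha.rot0 _
  · exact (ha.rot0 _).neg

theorem WF.mulI (ha : WF r M a) : WF r M (recMulI M a) := ha.rot0 _

theorem mul_two_pow_lt {p j c : ℕ} (hc : c < 2 ^ p - 1) (hj : j ≤ 2 * p) :
    c * 2 ^ j < 2 ^ (3 * p) := by
  calc c * 2 ^ j < 2 ^ p * 2 ^ j := Nat.mul_lt_mul_of_pos_right (by omega) (by positivity)
    _ = 2 ^ (p + j) := by rw [pow_add]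
    _ ≤ 2 ^ (3 * p) := Nat.pow_le_pow_right (by norm_num) (by omega)

theorem WF.shift {p j : ℕ} (hp : 2 ≤ p) (hj : j ≤ 2 * p) (ha : WF r (2 ^ p - 1) a) :
    WF r (2 ^ p - 1) (recShift p j a) :=
  WF.map (fun _ hx => redM_lt hp (mul_two_pow_lt hx hj)) ha

theorem wf_fold {p : ℕ} {c : List ℕ} (hp : 2 ≤ p) (hc : ∀ x ∈ c, x < 2 ^ (3 * p)) :
    WF r (2 ^ p - 1) (recFold p r c) := by
  have h : ∀ x ∈ c ++ List.replicate (2 * r) 0, x < 2 ^ (3 * p) := by
    intro x hx
    rcases List.mem_append.1 hx with hx | hx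
    · exact hc x hx
    · rw [List.eq_of_mem_replicate hx]; positivity
  refine WF.sub (WF.map (M := 2 ^ (3 * p)) (fun _ => redM_lt hp) ⟨?_, ?_⟩)
    (WF.map (M := 2 ^ (3 * p)) (fun _ => redM_lt hp) ⟨?_, ?_⟩)
  · simp; omega
  · exact fun x hx => h x (List.mem_of_mem_take hx)
  · simp; omega
  · exact fun x hx => h x (List.mem_of_mem_drop (List.mem_of_mem_take hx))

end wf

/-! ### semantics -/

section ev

variable {A : Type*} [CommRing A]

/-- the ring element denoted by a coefficient list -/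
def ev (y : A) : List ℕ → A
  | [] => 0
  | c :: l => (c : A) + y * ev y l

variable {y : A} {r M : ℕ} {a b : List ℕ}

@[simp] theorem ev_nil : ev y [] = 0 := rfl

@[simp] theorem ev_cons (c : ℕ) (l : List ℕ) : ev y (c :: l) = (c : A) + y * ev y l := rfl

theorem ev_append (a b : List ℕ) : ev y (a ++ b) = ev y a + y ^ a.length * ev y b := by
  induction a with
  | nil => simp
  | cons c a ih => simp only [List.cons_append, ev_cons, ih, List.length_cons]; ring

theorem ev_eq_sum_of_le (a : List ℕ) {n : ℕ} (hn : a.length ≤ n) :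
    ev y a = ∑ i ∈ range n, (a.getD i 0 : A) * y ^ i := by
  induction a generalizing n with
  | nil => simp
  | cons c a ih =>
    obtain ⟨n, rfl⟩ : ∃ m, n = m + 1 := ⟨n - 1, by simp at hn; omega⟩
    rw [ev_cons, ih (n := n) (by simpa using hn), Finset.sum_range_succ', Finset.mul_sum]
    simp only [List.getD_cons_succ, List.getD_cons_zero, pow_zero, mul_one]
    rw [add_comm]
    congr 1
    exact Finset.sum_congr rfl (fun i _ => by ring)

theorem ev_eq_sum (a : List ℕ) : ev y a = ∑ i ∈ range a.length, (a.getD i 0 : A) * y ^ i :=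
  ev_eq_sum_of_le a le_rfl

theorem ev_replicate_zero (n : ℕ) : ev y (List.replicate n 0) = 0 := by
  induction n with
  | zero => rfl
  | succ n ih => simp [List.replicate_succ, ih]

@[simp] theorem ev_zero (r : ℕ) : ev y (recZero r) = 0 := ev_replicate_zero r

theorem ev_map_of_mul {f : ℕ → ℕ} {u : A} (h : ∀ x ∈ a, ((f x : ℕ) : A) = u * x) :
    ev y (a.map f) = u * ev y a := by
  induction a with
  | nil => simp
  | cons c a ih =>
    simp only [List.map_cons, ev_cons]
    rw [h c (by simp), ih (fun x hx => h x (by simp [hx]))]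
    ring

theorem ev_zipWith_of_lin {f : ℕ → ℕ → ℕ} {u v : A} (hl : a.length = b.length)
    (h : ∀ x ∈ a, ∀ z ∈ b, ((f x z : ℕ) : A) = u * x + v * z) :
    ev y (List.zipWith f a b) = u * ev y a + v * ev y b := by
  induction a generalizing b with
  | nil =>
    cases b with
    | nil => simp
    | cons => simp at hl
  | cons c a ih =>
    cases b with
    | nil => simp at hl
    | cons d b =>
      simp only [List.zipWith_cons_cons, ev_cons]
      rw [h c (by simp) d (by simp), ih (by simpa using hl)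
        (fun x hx z hz => h x (by simp [hx]) z (by simp [hz]))]
      ring

theorem ev_add (hM : (M : A) = 0) (ha : WF r M a) (hb : WF r M b) :
    ev y (recAdd M a b) = ev y a + ev y b := by
  have := ev_zipWith_of_lin (y := y) (f := addM M) (u := 1) (v := 1) (ha.1.trans hb.1.symm)
    (fun x _ z _ => by rw [cast_addM hM]; ring)
  simpa [recAdd] using this

theorem ev_sub (hM : (M : A) = 0) (ha : WF r M a) (hb : WF r M b) :
    ev y (recSub M a b) = ev y a - ev y b := by
  have := ev_zipWith_of_lin (y := y) (f := subM M) (u := 1) (v := -1) (ha.1.trans hb.1.symm)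
    (fun x _ z hz => by rw [cast_subM hM x (hb.lt hz).le]; ring)
  rw [recSub, this]; ring

theorem ev_neg' (hM : (M : A) = 0) (ha : ∀ c ∈ a, c < M) : ev y (recNeg M a) = -ev y a := by
  have := ev_map_of_mul (y := y) (a := a) (f := negM M) (u := -1)
    (fun x hx => by rw [cast_negM hM (ha x hx).le]; ring)
  rw [recNeg, this]; ring

theorem ev_neg (hM : (M : A) = 0) (ha : WF r M a) : ev y (recNeg M a) = -ev y a :=
  ev_neg' hM ha.2

theorem ev_half (hM : (M : A) = 0) (hodd : M % 2 = 1) {hf : A} (hhf : 2 * hf = 1) (a : List ℕ) :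
    ev y (recHalf M a) = hf * ev y a :=
  ev_map_of_mul (fun x _ => cast_halfM hM hodd hhf x)

theorem ev_rot0 (hM : (M : A) = 0) (hy : y ^ r = -1) (ha : WF r M a) {e : ℕ} (he : e ≤ r) :
    ev y (recRot0 M e a) = y ^ e * ev y a := by
  have h1 : ev y a = ev y (a.take (r - e)) + y ^ (r - e) * ev y (a.drop (r - e)) := by
    conv_lhs => rw [← List.take_append_drop (r - e) a, ev_append]
    rw [List.length_take, ha.1, min_eq_left (by omega)]
  have h2 : y ^ e * y ^ (r - e) = -1 := by rw [← pow_add, ← hy]; congr 1; omega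
  rw [recRot0, ev_append, ev_neg' hM (fun c hc => ha.lt (List.mem_of_mem_drop hc)), ha.1, h1]
  have h3 : (recNeg M (a.drop (r - e))).length = e := by simp [recNeg, ha.1]; omega
  rw [h3, mul_add, ← mul_assoc, h2]
  ring

theorem ev_rot (hM : (M : A) = 0) (hy : y ^ r = -1) (ha : WF r M a) {e : ℕ} (he : e ≤ 2 * r) :
    ev y (recRot M e a) = y ^ e * ev y a := by
  unfold recRot
  rw [ha.1]
  split_ifs with h
  · exact ev_rot0 hM hy ha h.le
  · rw [ev_neg hM (ha.rot0 _), ev_rot0 hM hy ha (by omega)]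
    have : y ^ e = y ^ (e - r) * y ^ r := by rw [← pow_add]; congr 1; omega
    rw [this, hy]; ring

/-- exponents of `y` only matter modulo `2 * r` -/
theorem pow_mod_two_mul (hy : y ^ r = -1) (e : ℕ) : y ^ (e % (2 * r)) = y ^ e := by
  have h : y ^ (2 * r) = 1 := by rw [mul_comm, pow_mul, hy]; ring
  conv_rhs => rw [← Nat.mod_add_div e (2 * r), pow_add, pow_mul, h, one_pow, mul_one]


theorem ev_mulI (hM : (M : A) = 0) (hy : y ^ r = -1) (ha : WF r M a) :
    ev y (recMulI M a) = y ^ (r / 2) * ev y a := by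
  rw [recMulI, ha.1, ev_rot0 hM hy ha (Nat.div_le_self _ _)]

theorem pow_half_sq (hy : y ^ r = -1) (hr : r % 2 = 0) : y ^ (r / 2) * y ^ (r / 2) = -1 := by
  rw [← pow_add, ← hy]; congr 1; omega

theorem ev_shift {p j : ℕ} (hM : ((2 ^ p - 1 : ℕ) : A) = 0) (hp : 2 ≤ p) (hj : j ≤ 2 * p)
    (ha : WF r (2 ^ p - 1) a) : ev y (recShift p j a) = 2 ^ j * ev y a :=
  ev_map_of_mul (fun x hx => by
    rw [cast_redM hM hp (mul_two_pow_lt (ha.lt hx) hj)]; push_cast; ring)

/-- `2 ^ p = 1` modulo `2 ^ p - 1` -/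
theorem two_pow_eq_one {p : ℕ} (hM : ((2 ^ p - 1 : ℕ) : A) = 0) : (2 : A) ^ p = 1 := by
  rw [Nat.cast_sub Nat.one_le_two_pow] at hM
  push_cast at hM
  exact sub_eq_zero.1 hM

theorem ev_fold {p : ℕ} {c : List ℕ} (hM : ((2 ^ p - 1 : ℕ) : A) = 0) (hy : y ^ r = -1)
    (hp : 2 ≤ p) (hl : ∀ k, 2 * r ≤ k → c.getD k 0 = 0) (hc : ∀ x ∈ c, x < 2 ^ (3 * p)) :
    ev y (recFold p r c) = ev y c := by
  set c' := c ++ List.replicate (2 * r) 0 with hc'
  have h : ∀ x ∈ c', x < 2 ^ (3 * p) := by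
    intro x hx
    rcases List.mem_append.1 hx with hx | hx
    · exact hc x hx
    · rw [List.eq_of_mem_replicate hx]; positivity
  have hlen : 2 * r ≤ c'.length := by simp [hc']
  have w1 : WF r (2 ^ (3 * p)) (c'.take r) :=
    ⟨by simp; omega, fun x hx => h x (List.mem_of_mem_take hx)⟩
  have w2 : WF r (2 ^ (3 * p)) ((c'.drop r).take r) :=
    ⟨by simp; omega, fun x hx => h x (List.mem_of_mem_drop (List.mem_of_mem_take hx))⟩
  have m1 : ∀ l : List ℕ, WF r (2 ^ (3 * p)) l → ev y (l.map (redM p)) = ev y l := by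
    intro l hl
    rw [ev_map_of_mul (u := 1) (fun x hx => by rw [cast_redM hM hp (hl.lt hx), one_mul]), one_mul]
  rw [recFold, ev_sub hM (w1.map (fun _ => redM_lt hp)) (w2.map (fun _ => redM_lt hp)), m1 _ w1,
    m1 _ w2]
  have e0 : ev y c = ev y c' := by rw [hc', ev_append, ev_replicate_zero]; ring
  have e1 : ev y c' = ev y (c'.take r) + y ^ r * ev y (c'.drop r) := by
    conv_lhs => rw [← List.take_append_drop r c', ev_append, w1.1]
  have e2 : ev y (c'.drop r) = ev y ((c'.drop r).take r) + y ^ r * ev y ((c'.drop r).drop r) := by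
    conv_lhs => rw [← List.take_append_drop r (c'.drop r), ev_append, w2.1]
  have e3 : ev y ((c'.drop r).drop r) = 0 := by
    rw [List.drop_drop, hc', List.drop_append, ev_append, List.drop_replicate, ev_replicate_zero,
      mul_zero, add_zero, ev_eq_sum]
    refine Finset.sum_eq_zero (fun i _ => ?_)
    have : (c.drop (r + r)).getD i 0 = c.getD (r + r + i) 0 := by
      simp [List.getD_eq_getElem?_getD]
    rw [this, hl _ (by omega)]
    simp
  rw [e0, e1, e2, e3, hy]
  ring

theorem map_ev {B : Type*} [CommRing B] (φ : A →+* B) (a : List ℕ) :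
    φ (ev y a) = ev (φ y) a := by
  induction a with
  | nil => simp
  | cons c a ih => simp [ih]

theorem coeff_ev_X (a : List ℕ) (k : ℕ) : (ev (X : A[X]) a).coeff k = (a.getD k 0 : A) := by
  induction a generalizing k with
  | nil => simp
  | cons c a ih =>
    rw [ev_cons, ← C_eq_natCast]
    cases k with
    | zero => simp
    | succ k => rw [coeff_add, coeff_X_mul, ih, coeff_C_succ]; simp

theorem ev_eq_eval (a : List ℕ) : ev y a = (ev (X : A[X]) a).eval y := by
  have := map_ev (y := (X : A[X])) (evalRingHom y) a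
  simpa using this.symm

/-- an acyclic convolution of coefficient lists denotes the product -/
theorem ev_conv {c : List ℕ}
    (hc : ∀ k, c.getD k 0 = ∑ p ∈ antidiagonal k, a.getD p.1 0 * b.getD p.2 0) :
    ev y c = ev y a * ev y b := by
  have : ev (X : A[X]) c = ev (X : A[X]) a * ev (X : A[X]) b := by
    ext k
    rw [coeff_mul, coeff_ev_X, hc]
    push_cast
    exact Finset.sum_congr rfl (fun p _ => by rw [coeff_ev_X, coeff_ev_X])
  rw [ev_eq_eval c, this, eval_mul, ← ev_eq_eval, ← ev_eq_eval]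

end ev

/-! ### products -/

/-- `conv` is an exact acyclic convolution -/
def IsConv (conv : List ℕ → List ℕ → List ℕ) : Prop :=
  ∀ a b k, (conv a b).getD k 0 = ∑ i ∈ range (k + 1), a.getD i 0 * b.getD (k - i) 0

theorem IsConv.anti {conv : List ℕ → List ℕ → List ℕ} (h : IsConv conv) (a b : List ℕ) (k : ℕ) :
    (conv a b).getD k 0 = ∑ p ∈ antidiagonal k, a.getD p.1 0 * b.getD p.2 0 := by
  rw [h, Finset.Nat.sum_antidiagonal_eq_sum_range_succ (fun i j => a.getD i 0 * b.getD j 0)]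

/-- product of records modulo `2 ^ p - 1`, through an acyclic convolution -/
def recMul (conv : List ℕ → List ℕ → List ℕ) (p : ℕ) (a b : List ℕ) : List ℕ :=
  recFold p a.length (conv a b)

theorem conv_entry_lt {r p : ℕ} {a b c : List ℕ} (hr : r ≤ 2 ^ p) (ha : WF r (2 ^ p - 1) a)
    (hb : WF r (2 ^ p - 1) b)
    (hc : ∀ k, c.getD k 0 = ∑ q ∈ antidiagonal k, a.getD q.1 0 * b.getD q.2 0) :
    ∀ x ∈ c, x < 2 ^ (3 * p) := by
  intro x hx
  obtain ⟨k, hk, e⟩ := List.getElem_of_mem hx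
  replace e : x = c.getD k 0 := by rw [List.getD_eq_getElem _ _ hk, e]
  have hpos : 0 < 2 ^ p := by positivity
  have hz : ∀ q ∈ antidiagonal k, q ∉ (antidiagonal k).filter (fun q => q.1 < r) →
      a.getD q.1 0 * b.getD q.2 0 = 0 := by
    intro q hq hq'
    have : ¬ q.1 < r := fun h => hq' (Finset.mem_filter.2 ⟨hq, h⟩)
    rw [List.getD_eq_default _ _ (by rw [ha.1]; omega), zero_mul]
  have hle : ∀ l : List ℕ, WF r (2 ^ p - 1) l → ∀ i, l.getD i 0 ≤ 2 ^ p - 1 := by
    intro l hl i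
    rw [List.getD_eq_getElem?_getD]
    rcases hi : l[i]? with _ | d
    · simp
    · exact (hl.lt (List.mem_of_getElem? hi)).le
  have hcard : ((antidiagonal k).filter (fun q : ℕ × ℕ => q.1 < r)).card ≤ r := by
    conv_rhs => rw [← Finset.card_range r]
    refine Finset.card_le_card_of_injOn (fun q => q.1) (fun q hq => ?_) (fun q hq q' hq' h => ?_)
    · simpa using (Finset.mem_filter.1 hq).2
    · have h1 := mem_antidiagonal.1 (Finset.mem_filter.1 hq).1
      have h2 := mem_antidiagonal.1 (Finset.mem_filter.1 hq').1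
      have h3 : q.1 = q'.1 := h
      exact Prod.ext h3 (by omega)
  rw [e, hc, ← Finset.sum_subset (Finset.filter_subset _ _) hz]
  calc ∑ q ∈ (antidiagonal k).filter (fun q : ℕ × ℕ => q.1 < r), a.getD q.1 0 * b.getD q.2 0
      ≤ ((antidiagonal k).filter (fun q : ℕ × ℕ => q.1 < r)).card • ((2 ^ p - 1) * (2 ^ p - 1)) :=
        Finset.sum_le_card_nsmul _ _ _ (fun q _ => Nat.mul_le_mul (hle a ha _) (hle b hb _))
    _ ≤ 2 ^ p * ((2 ^ p - 1) * (2 ^ p - 1)) := Nat.mul_le_mul_right _ (hcard.trans hr)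
    _ < 2 ^ p * (2 ^ p * 2 ^ p) := by
        refine Nat.mul_lt_mul_of_pos_left ?_ hpos
        exact Nat.mul_lt_mul'' (by omega) (by omega)
    _ = 2 ^ (3 * p) := by rw [← pow_add, ← pow_add]; congr 1; ring

theorem WF.mul {conv : List ℕ → List ℕ → List ℕ} (hconv : IsConv conv) {r p : ℕ} {a b : List ℕ}
    (hp : 2 ≤ p) (hr : r ≤ 2 ^ p) (ha : WF r (2 ^ p - 1) a) (hb : WF r (2 ^ p - 1) b) :
    WF r (2 ^ p - 1) (recMul conv p a b) := by
  rw [recMul, ha.1]
  exact wf_fold hp (conv_entry_lt hr ha hb (hconv.anti a b))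

theorem ev_mul {A : Type*} [CommRing A] {y : A} {conv : List ℕ → List ℕ → List ℕ}
    (hconv : IsConv conv) {r p : ℕ} {a b : List ℕ} (hM : ((2 ^ p - 1 : ℕ) : A) = 0)
    (hy : y ^ r = -1) (hp : 2 ≤ p) (hr : r ≤ 2 ^ p) (ha : WF r (2 ^ p - 1) a)
    (hb : WF r (2 ^ p - 1) b) : ev y (recMul conv p a b) = ev y a * ev y b := by
  rw [recMul, ha.1, ev_fold hM hy hp ?_ (conv_entry_lt hr ha hb (hconv.anti a b)),
    ev_conv (hconv.anti a b)]
  intro k hk
  rw [hconv.anti]
  refine Finset.sum_eq_zero (fun q hq => ?_)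
  have h1 := mem_antidiagonal.1 hq
  by_cases h : q.1 < r
  · rw [List.getD_eq_default b _ (by rw [hb.1]; omega), mul_zero]
  · rw [List.getD_eq_default a _ (by rw [ha.1]; omega), zero_mul]

/-! ### the universal ring of records -/

/-- `(ℤ / M)[y] / (y ^ r + 1)` -/
abbrev Rg (r M : ℕ) : Type := AdjoinRoot (X ^ r + 1 : (ZMod M)[X])

/-- the class of `y` -/
noncomputable def yR (r M : ℕ) : Rg r M := AdjoinRoot.root _

theorem yR_pow (r M : ℕ) : yR r M ^ r = -1 := by
  have h := AdjoinRoot.eval₂_root (X ^ r + 1 : (ZMod M)[X])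
  rw [eval₂_add, eval₂_X_pow, eval₂_one] at h
  exact eq_neg_of_add_eq_zero_left h

theorem cast_M_Rg (r M : ℕ) : ((M : ℕ) : Rg r M) = 0 := by
  rw [← map_natCast (AdjoinRoot.of (X ^ r + 1 : (ZMod M)[X])), ZMod.natCast_self, map_zero]

/-- coefficients below `r` are determined modulo `M` -/
theorem Rg_coeff_eq_zero {r M : ℕ} {f : ℕ → ZMod M}
    (h : ∑ i ∈ range r, AdjoinRoot.of _ (f i) * yR r M ^ i = 0) {i : ℕ} (hi : i < r) :
    f i = 0 := by
  rcases subsingleton_or_nontrivial (ZMod M) with hs | hs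
  · exact Subsingleton.elim _ _
  have hmon : (X ^ r + 1 : (ZMod M)[X]).Monic := by
    have := monic_X_pow_add_C (R := ZMod M) (1 : ZMod M) (n := r) (by omega)
    simpa using this
  have hdeg : (X ^ r + 1 : (ZMod M)[X]).degree = r := by
    have := degree_X_pow_add_C (R := ZMod M) (n := r) (by omega) (1 : ZMod M)
    simpa using this
  set g : (ZMod M)[X] := ∑ i ∈ range r, C (f i) * X ^ i with hg
  have h1 : AdjoinRoot.mk (X ^ r + 1 : (ZMod M)[X]) g = 0 := by
    rw [hg, map_sum, ← h]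
    exact Finset.sum_congr rfl (fun j _ => by simp [yR])
  have h2 : g.degree < (X ^ r + 1 : (ZMod M)[X]).degree := by
    rw [hdeg]
    refine (degree_sum_le _ _).trans_lt ((Finset.sup_lt_iff (WithBot.bot_lt_coe r)).2 ?_)
    intro j hj
    exact (degree_C_mul_X_pow_le j (f j)).trans_lt (Nat.cast_lt.2 (Finset.mem_range.1 hj))
  have h3 : g = 0 := by
    by_contra h0
    exact hmon.not_dvd_of_degree_lt h0 h2 (AdjoinRoot.mk_eq_zero.1 h1)
  have h4 : g.coeff i = f i := by
    rw [hg, finsetSum_coeff]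
    simp [coeff_X_pow, hi]
  rw [← h4, h3, coeff_zero]


/-! ### constants of `Rg` -/

section const

variable {r M : ℕ}

/-- the inverse of `2` in `Rg r M` for odd `M` -/
noncomputable def hfR (r M : ℕ) : Rg r M := (((M + 1) / 2 : ℕ) : Rg r M)


theorem two_mul_hfR (r : ℕ) (hodd : M % 2 = 1) : 2 * hfR r M = 1 :=
  two_mul_half (cast_M_Rg r M) hodd


theorem two_pow_sub_one_odd {p : ℕ} (hp : 1 ≤ p) : (2 ^ p - 1) % 2 = 1 := by
  obtain ⟨q, rfl⟩ := Nat.exists_eq_add_of_le hp
  have : 0 < 2 ^ q := by positivity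
  rw [pow_add]
  omega


end const

end Crest.Agent.X326.M4
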