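import Crest.Agent.X326.TC.Core
import Crest.Agent.X326.M4.Rec
import Crest.Agent.X326.M4.Fft
import Crest.Agent.X326.FB.Defs

/-!
Row 326 (S0503), part M4: exact `d`-dimensional cyclic convolution of arrays of records.
Definitions and interfaces.

An array is a flat list of `t ^ d` records (`t = 2 ^ k`); digit `i` of the flat index `n` is
`n / t ^ i % t` (axis `0` is the innermost, fastest one).  A record is a list of `r = 2 ^ lr`
residues modulo `M = 2 ^ P - 1`, read as an element of `Rg = (ZMod M)[Y] / (Y ^ r + 1)`.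
-/

set_option autoImplicit false

namespace Crest.Agent.X326.M4

open Crest.Agent.Lib.PT

/-- a well-formed array of `N` records -/
def WFA (N r M : ℕ) (l : List (List ℕ)) : Prop := l.length = N ∧ ∀ x ∈ l, WF r M x

/-- coefficient `j` of record `n` -/
def coef (M : ℕ) (l : List (List ℕ)) (j n : ℕ) : ZMod M := (((l.getD n []).getD j 0 : ℕ) : ZMod M)

/-- the array as a function to `Rg` -/
noncomputable def arr (r M : ℕ) (l : List (List ℕ)) (n : ℕ) : Rg r M :=
  ev (yR r M) (l.getD n [])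

/-! ### parameters -/

/-- parameters: `t = 2 ^ k`, `d` axes, `r = 2 ^ lr`, `M = 2 ^ P - 1`; coded in unary -/
structure Par where
  k : ℕ
  d : ℕ
  lr : ℕ
  P : ℕ

instance : PTCode Par :=
  PTCode.ofInj (fun p => (Un.mk p.k, Un.mk p.d, Un.mk p.lr, Un.mk p.P)) (by
    rintro ⟨a, b, c, d⟩ ⟨a', b', c', d'⟩ h
    simp only [Prod.mk.injEq, Un.mk.injEq] at h
    obtain ⟨rfl, rfl, rfl, rfl⟩ := h
    rfl)


theorem sz_par (p : Par) : sz p = 2 * p.k + 2 * p.d + 2 * p.lr + p.P + 3 := by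
  have : sz p = sz (Un.mk p.k, Un.mk p.d, Un.mk p.lr, Un.mk p.P) := rfl
  rw [this]
  simp only [sz_prod, sz_un]
  omega

/-- axis length -/
def Par.t (p : Par) : ℕ := 2 ^ p.k
/-- number of records -/
def Par.N (p : Par) : ℕ := 2 ^ (p.k * p.d)
/-- record length -/
def Par.r (p : Par) : ℕ := 2 ^ p.lr
/-- modulus -/
def Par.M (p : Par) : ℕ := 2 ^ p.P - 1
/-- nominal volume of an array -/
def Par.vol (p : Par) : ℕ := p.N * p.r * p.P
/-- well-formed arrays -/
def Par.WF (p : Par) (l : List (List ℕ)) : Prop := WFA p.N p.r p.M l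

/-- side conditions used by M4 itself: `t ∣ 2 r`, and all parameters are polynomial in `lr`
(so that polynomial-time work per record is absorbed by the record length `2 ^ lr`). -/
structure Par.Ok (p : Par) : Prop where
  k_pos : 1 ≤ p.k
  k_le : p.k ≤ p.lr + 1
  d_pos : 1 ≤ p.d
  P_ge : 2 ≤ p.P
  lr_le : p.lr ≤ p.P
  kd_le : p.k * p.d ≤ p.P
  P_le : p.P ≤ (p.lr + 1) ^ 4

/-- **What M4 consumes from M3.** A program for the butterflies on bit `β` of all `d` axes. -/
def SpecLayer (ok : Par → Prop) (TL : Par → ℕ) : Prop :=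
  ∃ layer : Par × Un × List (List ℕ) → List (List ℕ),
    TC (fun x : Par × Un × List (List ℕ) => ok x.1 ∧ x.2.1.val < x.1.k ∧ x.1.WF x.2.2)
      (fun x => TL x.1) layer ∧
    ∀ (p : Par) (β : ℕ) (l : List (List ℕ)), ok p → β < p.k → p.WF l →
      p.WF (layer (p, ⟨β⟩, l)) ∧ ∀ n < p.N,
        arr p.r p.M (layer (p, ⟨β⟩, l)) n = Hlay p.k p.d β (arr p.r p.M l) n

/-- **What M4 consumes from the base multiplier.** Exact acyclic convolution of lists of
naturals; `μ r p` bounds the cost for lengths at most `r` and entries below `2 ^ p`. -/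
def SpecConv (μ : ℕ → ℕ → ℕ) : Prop :=
  ∃ (conv : List ℕ → List ℕ → List ℕ) (T : List ℕ × List ℕ → ℕ), IsConv conv ∧
    TC (fun _ => True) T (fun x : List ℕ × List ℕ => conv x.1 x.2) ∧
    ∀ (r p : ℕ) (a b : List ℕ), a.length ≤ r → b.length ≤ r → (∀ c ∈ a, c < 2 ^ p) →
      (∀ c ∈ b, c < 2 ^ p) → T (a, b) ≤ μ r p

/-- **What M4 delivers.** The cyclic convolution on `(ℤ / t) ^ d` of arrays of records
(multiplied modulo `Y ^ r + 1`), exactly modulo `M`, at cost `T`. -/
def SpecM4 (ok : Par → Prop) (T : Par → ℕ) : Prop :=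
  ∃ cv : Par × List (List ℕ) × List (List ℕ) → List (List ℕ),
    TC (fun x : Par × List (List ℕ) × List (List ℕ) => ok x.1 ∧ x.1.WF x.2.1 ∧ x.1.WF x.2.2)
      (fun x => T x.1) cv ∧
    ∀ (p : Par) (la lb : List (List ℕ)), ok p → p.WF la → p.WF lb →
      p.WF (cv (p, la, lb)) ∧ ∀ a b : FB.Arr,
        (∀ n < p.N, ∀ j < p.r, coef p.M la j n = ((a (n * p.r + j) : ℤ) : ZMod p.M)) →
        (∀ n < p.N, ∀ j < p.r, coef p.M lb j n = ((b (n * p.r + j) : ℤ) : ZMod p.M)) →
        ∀ n < p.N, ∀ j < p.r, coef p.M (cv (p, la, lb)) j n =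
          ((FB.tower p.t (p.d - 1) p.r (FB.nega p.r) a b (n * p.r + j) : ℤ) : ZMod p.M)

/-- Main statement of M4 (proved in `M4/Main.lean`). -/
def MainM4 : Prop :=
  ∀ (ok : Par → Prop) (TL : Par → ℕ) (μ : ℕ → ℕ → ℕ), SpecLayer ok TL → SpecConv μ →
    SpecM4 (fun p => ok p ∧ p.Ok) (fun p => p.k * (TL p + p.vol) + p.N * μ p.r p.P)

end Crest.Agent.X326.M4
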