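import Crest.Agent.X326.M4.Bridge
import Crest.Agent.X326.M4.TwPT
import Crest.Agent.X326.TC.Zip
import Crest.Agent.X326.TC.NatLin

-- ▼ part X326/M4/Alg
section

/-!
Row 326 (S0503), part M4: the convolution algorithm on lists of records and its correctness.
-/

set_option autoImplicit false

namespace Crest.Agent.X326.M4

open Crest.Agent.Lib.PT

/-- arrays of records -/
abbrev Ar : Type := List (List ℕ)

/-- multiply record number `n` by `y ^ e n` -/
def twist (M : ℕ) (e : ℕ → ℕ) (l : Ar) : Ar := l.mapIdx (fun n x => recRot M (e n) x)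

section alg

variable (layer : Par × Un × Ar → Ar) (conv : List ℕ → List ℕ → List ℕ)

/-- forward round -/
def fStep (p : Par) (l : Ar) (ρ : ℕ) : Ar :=
  twist p.M (twE p ρ) (layer (p, ⟨p.k - 1 - ρ⟩, l))

/-- inverse round -/
def iStep (p : Par) (l : Ar) (ρ : ℕ) : Ar :=
  layer (p, ⟨p.k - 1 - ρ⟩, twist p.M (itwE p ρ) l)

/-- forward transform -/
def fwdL (p : Par) (l : Ar) : Ar := (List.range p.k).foldl (fStep layer p) l

/-- inverse transform -/
def invL (p : Par) (l : Ar) : Ar := (List.range p.k).reverse.foldl (iStep layer p) l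

/-- pointwise products -/
def mulL (p : Par) (la lb : Ar) : Ar := List.zipWith (recMul conv p.P) la lb

/-- division by `2 ^ (k * d)` -/
def scaleL (p : Par) (l : Ar) : Ar := l.map (recShift p.P (p.P - p.k * p.d))

/-- the whole algorithm -/
def cvL (p : Par) (la lb : Ar) : Ar :=
  scaleL p (invL layer p (mulL conv p (fwdL layer p la) (fwdL layer p lb)))

end alg

/-! ### pointwise passes -/

theorem Par.N_pos (p : Par) : 0 < p.N := by unfold Par.N; positivity

theorem WFA.twist {N r M : ℕ} {l : Ar} (h : WFA N r M l) (e : ℕ → ℕ) :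
    WFA N r M (twist M e l) := by
  refine ⟨by simp [M4.twist, h.1], fun x hx => ?_⟩
  obtain ⟨i, hi, rfl⟩ := List.getElem_of_mem hx
  simp only [M4.twist, List.getElem_mapIdx]
  exact (h.2 _ (List.getElem_mem _)).rot _

theorem getD_twist {N r M : ℕ} {l : Ar} (h : WFA N r M l) (e : ℕ → ℕ) {n : ℕ} (hn : n < N) :
    (twist M e l).getD n [] = recRot M (e n) (l.getD n []) := by
  have h1 : n < l.length := by rw [h.1]; exact hn
  rw [List.getD_eq_getElem _ _ (by simpa [twist] using h1), List.getD_eq_getElem _ _ h1]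
  simp [twist]

theorem arr_twist {N r M : ℕ} {l : Ar} (h : WFA N r M l) {e : ℕ → ℕ} {n : ℕ} (hn : n < N)
    (he : e n ≤ 2 * r) : arr r M (twist M e l) n = yR r M ^ e n * arr r M l n := by
  rw [arr, getD_twist h _ hn, ev_rot (cast_M_Rg r M) (yR_pow r M) (h.getD hn) he, arr]

theorem arr_twist_twE {p : Par} {l : Ar} (h : p.WF l) (ρ : ℕ) {n : ℕ} (hn : n < p.N) :
    arr p.r p.M (twist p.M (twE p ρ) l) n = p.w ^ twd p.k p.d ρ n * arr p.r p.M l n := by
  rw [arr_twist h hn (twE_le p ρ n), yR_pow_twE]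

theorem arr_twist_itwE {p : Par} {l : Ar} (h : p.WF l) (ρ : ℕ) {n : ℕ} (hn : n < p.N) :
    arr p.r p.M (twist p.M (itwE p ρ) l) n = p.w ^ itwd p.k p.d ρ n * arr p.r p.M l n := by
  rw [arr_twist h hn (itwE_le p ρ n), yR_pow_itwE]

theorem Par.Ok.r_le {p : Par} (hp : p.Ok) : p.r ≤ 2 ^ p.P :=
  Nat.pow_le_pow_right (by norm_num) hp.lr_le

theorem wf_mulL {conv : List ℕ → List ℕ → List ℕ} (hc : IsConv conv) {p : Par} (hp : p.Ok)
    {la lb : Ar} (ha : p.WF la) (hb : p.WF lb) : p.WF (mulL conv p la lb) := by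
  refine ⟨by simp [mulL, ha.1, hb.1], fun x hx => ?_⟩
  obtain ⟨i, hi, rfl⟩ := List.getElem_of_mem hx
  simp only [mulL, List.getElem_zipWith]
  exact WF.mul hc hp.P_ge hp.r_le (ha.2 _ (List.getElem_mem _)) (hb.2 _ (List.getElem_mem _))

theorem arr_mulL {conv : List ℕ → List ℕ → List ℕ} (hc : IsConv conv) {p : Par} (hp : p.Ok)
    {la lb : Ar} (ha : p.WF la) (hb : p.WF lb) {n : ℕ} (hn : n < p.N) :
    arr p.r p.M (mulL conv p la lb) n = arr p.r p.M la n * arr p.r p.M lb n := by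
  have h1 : n < la.length := by rw [ha.1]; exact hn
  have h2 : n < lb.length := by rw [hb.1]; exact hn
  have e : (mulL conv p la lb).getD n [] = recMul conv p.P (la.getD n []) (lb.getD n []) := by
    rw [List.getD_eq_getElem _ _ (by simp [mulL, h1, h2]), List.getD_eq_getElem _ _ h1,
      List.getD_eq_getElem _ _ h2]
    simp [mulL]
  rw [arr, e]
  exact ev_mul hc (cast_M_Rg p.r _) (yR_pow p.r _) hp.P_ge hp.r_le (WFA.getD ha hn)
    (WFA.getD hb hn)

theorem wf_scaleL {p : Par} (hp : p.Ok) {l : Ar} (h : p.WF l) : p.WF (scaleL p l) := by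
  refine ⟨by simp [scaleL, h.1], fun x hx => ?_⟩
  obtain ⟨y, hy, rfl⟩ := List.mem_map.1 hx
  exact WF.shift hp.P_ge (by omega) (h.2 y hy)

theorem arr_scaleL {p : Par} (hp : p.Ok) {l : Ar} (h : p.WF l) {n : ℕ} (hn : n < p.N) :
    arr p.r p.M (scaleL p l) n = 2 ^ (p.P - p.k * p.d) * arr p.r p.M l n := by
  have h1 : n < l.length := by rw [h.1]; exact hn
  have e : (scaleL p l).getD n [] = recShift p.P (p.P - p.k * p.d) (l.getD n []) := by
    rw [List.getD_eq_getElem _ _ (by simp [scaleL, h1]), List.getD_eq_getElem _ _ h1]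
    simp [scaleL]
  rw [arr, e]
  exact ev_shift (cast_M_Rg p.r _) hp.P_ge (by omega) (WFA.getD h hn)

/-! ### the transforms -/

/-- the specification of the layer program at fixed parameters -/
def LayOK (layer : Par × Un × Ar → Ar) (p : Par) : Prop :=
  ∀ (β : ℕ) (l : Ar), β < p.k → p.WF l → p.WF (layer (p, ⟨β⟩, l)) ∧ ∀ n < p.N,
    arr p.r p.M (layer (p, ⟨β⟩, l)) n = Hlay p.k p.d β (arr p.r p.M l) n

variable {layer : Par × Un × Ar → Ar} {p : Par}

theorem wf_fStep (hp : p.Ok) (hL : LayOK layer p) {l : Ar} (h : p.WF l) (ρ : ℕ) :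
    p.WF (fStep layer p l ρ) :=
  WFA.twist (hL _ l (by have := hp.k_pos; omega) h).1 _

theorem wf_iStep (hp : p.Ok) (hL : LayOK layer p) {l : Ar} (h : p.WF l) (ρ : ℕ) :
    p.WF (iStep layer p l ρ) :=
  (hL _ _ (by have := hp.k_pos; omega) (WFA.twist h _)).1

theorem arr_fStep (hp : p.Ok) (hL : LayOK layer p) {l : Ar} (h : p.WF l) (ρ : ℕ) :
    ∀ n < p.N, arr p.r p.M (fStep layer p l ρ) n = fwdRound p.w p.k p.d ρ (arr p.r p.M l) n := by
  intro n hn
  have h1 := hL (p.k - 1 - ρ) l (by have := hp.k_pos; omega) h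
  rw [fStep, arr_twist_twE h1.1 ρ hn, h1.2 n hn, fwdRound]

theorem arr_iStep (hp : p.Ok) (hL : LayOK layer p) {l : Ar} (h : p.WF l) (ρ : ℕ) :
    ∀ n < p.N, arr p.r p.M (iStep layer p l ρ) n = invRound p.w p.k p.d ρ (arr p.r p.M l) n := by
  intro n hn
  have hβ : p.k - 1 - ρ < p.k := by have := hp.k_pos; omega
  have h1 := hL (p.k - 1 - ρ) _ hβ (WFA.twist h (itwE p ρ))
  rw [iStep, h1.2 n hn, invRound]
  exact Hlay_congr hβ (fun x hx => arr_twist_itwE h ρ hx) n hn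

theorem wf_foldl {step : Ar → ℕ → Ar} (hs : ∀ l ρ, p.WF l → p.WF (step l ρ)) (L : List ℕ)
    {l : Ar} (h : p.WF l) : p.WF (L.foldl step l) := by
  induction L generalizing l with
  | nil => exact h
  | cons ρ L ih => exact ih (hs l ρ h)

theorem wf_fwdL (hp : p.Ok) (hL : LayOK layer p) {l : Ar} (h : p.WF l) : p.WF (fwdL layer p l) :=
  wf_foldl (fun _ ρ h => wf_fStep hp hL h ρ) _ h

theorem wf_invL (hp : p.Ok) (hL : LayOK layer p) {l : Ar} (h : p.WF l) : p.WF (invL layer p l) :=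
  wf_foldl (fun _ ρ h => wf_iStep hp hL h ρ) _ h

theorem arr_fwdL (hp : p.Ok) (hL : LayOK layer p) {l : Ar} (h : p.WF l) :
    ∀ n < p.N, arr p.r p.M (fwdL layer p l) n = fwd p.w p.k p.d (arr p.r p.M l) n := by
  have key : ∀ m, ∀ n < p.N, arr p.r p.M ((List.range m).foldl (fStep layer p) l) n =
      fwdN p.w p.k p.d m (arr p.r p.M l) n := by
    intro m
    induction m with
    | zero => intro n _; rfl
    | succ m ih =>
      intro n hn
      rw [List.range_succ, List.foldl_append, List.foldl_cons, List.foldl_nil, fwdN_succ,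
        arr_fStep hp hL (wf_foldl (fun _ ρ h => wf_fStep hp hL h ρ) _ h) m n hn]
      exact fwdRound_congr p.w hp.k_pos ih n hn
  exact key p.k

theorem arr_invL (hp : p.Ok) (hL : LayOK layer p) {l : Ar} (h : p.WF l) :
    ∀ n < p.N, arr p.r p.M (invL layer p l) n = inv p.w p.k p.d (arr p.r p.M l) n := by
  have key : ∀ m, ∀ l : Ar, p.WF l → ∀ n < p.N,
      arr p.r p.M ((List.range m).reverse.foldl (iStep layer p) l) n =
        invN p.w p.k p.d m (arr p.r p.M l) n := by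
    intro m
    induction m with
    | zero => intro l _ n _; rfl
    | succ m ih =>
      intro l h n hn
      rw [List.range_succ, List.reverse_append, List.reverse_singleton, List.singleton_append,
        List.foldl_cons, invN_succ, ih _ (wf_iStep hp hL h m) n hn]
      exact invN_congr p.w hp.k_pos m (arr_iStep hp hL h m) n hn
  exact key p.k l h

theorem wf_cvL {conv : List ℕ → List ℕ → List ℕ} (hc : IsConv conv) (hp : p.Ok)
    (hL : LayOK layer p) {la lb : Ar} (ha : p.WF la) (hb : p.WF lb) :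
    p.WF (cvL layer conv p la lb) :=
  wf_scaleL hp (wf_invL hp hL (wf_mulL hc hp (wf_fwdL hp hL ha) (wf_fwdL hp hL hb)))

/-- **Correctness of the algorithm.** -/
theorem arr_cvL {conv : List ℕ → List ℕ → List ℕ} (hc : IsConv conv) (hp : p.Ok)
    (hL : LayOK layer p) {la lb : Ar} (ha : p.WF la) (hb : p.WF lb) :
    ∀ n < p.N, arr p.r p.M (cvL layer conv p la lb) n =
      cconv p.k p.d (arr p.r p.M la) (arr p.r p.M lb) n := by
  intro n hn
  have hfa := wf_fwdL hp hL ha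
  have hfb := wf_fwdL hp hL hb
  have hm := wf_mulL hc hp hfa hfb
  rw [cvL, arr_scaleL hp (wf_invL hp hL hm) hn, arr_invL hp hL hm n hn]
  have e : inv p.w p.k p.d (arr p.r p.M (mulL conv p (fwdL layer p la) (fwdL layer p lb))) n =
      inv p.w p.k p.d (fun y => fwd p.w p.k p.d (arr p.r p.M la) y *
        fwd p.w p.k p.d (arr p.r p.M lb) y) n :=
    invN_congr p.w hp.k_pos p.k (fun x hx => by
      rw [arr_mulL hc hp hfa hfb hx, arr_fwdL hp hL ha x hx, arr_fwdL hp hL hb x hx]) n hn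
  rw [e, inv_fwd_mul hp.k_pos (p.w_pow hp.k_pos hp.k_le) p.d _ _ n hn, ← mul_assoc, ← pow_add,
    Nat.sub_add_cancel hp.kd_le]
  have h2 : (2 : Rg p.r p.M) ^ p.P = 1 := two_pow_eq_one (cast_M_Rg p.r _)
  rw [h2, one_mul]

/-- correctness against `FB.tower` -/
theorem coef_cvL {conv : List ℕ → List ℕ → List ℕ} (hc : IsConv conv) (hp : p.Ok)
    (hL : LayOK layer p) {la lb : Ar} (hla : p.WF la) (hlb : p.WF lb) (a b : FB.Arr)
    (ha : ∀ n < p.N, ∀ j < p.r, coef p.M la j n = ((a (n * p.r + j) : ℤ) : ZMod p.M))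
    (hb : ∀ n < p.N, ∀ j < p.r, coef p.M lb j n = ((b (n * p.r + j) : ℤ) : ZMod p.M)) :
    ∀ n < p.N, ∀ j < p.r, coef p.M (cvL layer conv p la lb) j n =
      ((FB.tower p.t (p.d - 1) p.r (FB.nega p.r) a b (n * p.r + j) : ℤ) : ZMod p.M) :=
  coef_eq_tower hp.d_pos p.r_pos hla hlb (wf_cvL hc hp hL hla hlb) ha hb
    (arr_cvL hc hp hL hla hlb)

end Crest.Agent.X326.M4
end

-- ▼ part X326/M4/Main

/-!
Row 326 (S0503), part M4: the cost of the convolution algorithm, and `MainM4`.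
-/

set_option autoImplicit false

namespace Crest.Agent.X326.M4

open Crest.Agent.Lib.PT

namespace Mn

variable {α : Type} [PTCode α] {D : α → Prop} {T : α → ℕ}

/-! ### record operations -/

theorem lin_negM : Lin (fun q : ℕ × ℕ => negM q.1 q.2) := by
  unfold negM; fun_prop

theorem lin_subM : Lin (fun q : ℕ × ℕ × ℕ => subM q.1 q.2.1 q.2.2) := by
  unfold subM; fun_prop

theorem lin_redM : Lin (fun q : Un × ℕ => redM q.1.val q.2) := by
  have hk : TU (fun _ : Un × ℕ => True) (fun _ => 0) (fun q => q.1.val) := TU.val TC.id.fst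
  have hx : Lin (fun q : Un × ℕ => q.2) := TC.id.snd
  have hM := (TC.natTwoPow hk).natSub (TC.const 1)
  have hs := ((hx.natModTwoPow hk).natAdd ((hx.natDivTwoPow hk).natModTwoPow hk)).natAdd
    ((hx.natDivTwoPow hk).natDivTwoPow hk)
  have hs' := (hs.natModTwoPow hk).natAdd (hs.natDivTwoPow hk)
  exact TC.ite (TP.natLt hs' hM) hs' (hs'.natSub hM)

theorem tc_recNeg {M : α → ℕ} {a : α → List ℕ} (hM : TC D T M) (ha : TC D T a)
    (hb : Bud D T (fun x => (a x).length * sz (M x))) : TC D T (fun x => recNeg (M x) (a x)) :=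
  TC.mapCtx_lin (f := negM) lin_negM hM ha hb

theorem tc_recRot0 {M e : α → ℕ} {a : α → List ℕ} (hM : TC D T M) (he : TU D T e)
    (ha : TC D T a) (hb : Bud D T (fun x => (a x).length * sz (M x))) :
    TC D T (fun x => recRot0 (M x) (e x) (a x)) :=
  (tc_recNeg hM (TC.drop ((TU.length ha).sub he) ha)
    (hb.mono (fun x _ => Nat.mul_le_mul_right _ (by simp)))).append
    (TC.take ((TU.length ha).sub he) ha)

theorem tc_recRot {M e : α → ℕ} {a : α → List ℕ} (hM : TC D T M) (he : TU D T e)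
    (ha : TC D T a) (hb : Bud D T (fun x => (a x).length * sz (M x))) :
    TC D T (fun x => recRot (M x) (e x) (a x)) :=
  TC.ite (TP.ltU he (TU.length ha)) (tc_recRot0 hM he ha hb)
    (tc_recNeg hM (tc_recRot0 hM (he.sub (TU.length ha)) ha hb)
      (hb.mono (fun x _ => Nat.mul_le_mul_right _ (by simp [recRot0, recNeg]))))

theorem tc_rot : TC (fun q : (ℕ × ℕ) × List ℕ => q.1.2 ≤ 2 * q.2.length)
    (fun q => q.2.length * sz q.1.1) (fun q => recRot q.1.1 q.1.2 q.2) :=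
  tc_recRot TC.id.fst.fst
    (TU.ofNat TC.id.fst.snd (((TU.length TC.id.snd).bud.const_mul 2).mono (fun _ h => h)))
    TC.id.snd Bud.self

theorem tc_shift : TC (fun _ : (Un × Un) × List ℕ => True) (fun q => q.2.length * sz q.1)
    (fun q => recShift q.1.1.val q.1.2.val q.2) := by
  have h : Lin (fun q : (Un × Un) × ℕ => redM q.1.1.val (q.2 * 2 ^ q.1.2.val)) :=
    TC.comp_lin (f := fun q : (Un × Un) × ℕ => (q.1.1, q.2 * 2 ^ q.1.2.val)) lin_redM
      (TC.id.fst.fst.prodMk (TC.id.snd.natMulTwoPow (TU.val TC.id.fst.snd)))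
  exact TC.mapCtx_lin (f := fun (c : Un × Un) (a : ℕ) => redM c.1.val (a * 2 ^ c.2.val)) h
    TC.id.fst TC.id.snd Bud.self

theorem tc_recFold {p r : α → ℕ} {c : α → List ℕ} (hp : TU D T p) (hr : TU D T r)
    (hc : TC D T c) (hb : Bud D T (fun x => r x * p x)) :
    TC D T (fun x => recFold (p x) (r x) (c x)) := by
  have h0 : TC D T (fun x => c x ++ List.replicate (2 * r x) 0) :=
    hc.append (TC.replicate_const 0 (hr.const_mul 2))
  have hm : ∀ l : α → List ℕ, TC D T l → TC D T (fun x => ((l x).take (r x)).map (redM (p x))) :=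
    fun l hl => TC.mapCtx_lin (f := fun (c : Un) (a : ℕ) => redM c.val a)
      (c := fun x => Un.mk (p x)) lin_redM hp (TC.take hr hl)
      (hb.mono (fun x _ => by
        rw [sz_un]
        exact Nat.mul_le_mul_right _ (by simp)))
  refine TC.zipWithCtx_lin (f := subM) lin_subM ((TC.natTwoPow hp).natSub (TC.const 1))
    (hm _ h0) (hm _ (TC.drop hr h0)) (hb.mono (fun x _ => Nat.mul_le_mul (by simp) ?_))
  exact sz_le_of_lt_two_pow (Nat.sub_lt (by positivity) one_pos)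

theorem tc_mul {conv : List ℕ → List ℕ → List ℕ} {Tc : List ℕ × List ℕ → ℕ}
    (h : TC (fun _ => True) Tc (fun x : List ℕ × List ℕ => conv x.1 x.2)) :
    TC (fun _ : Un × List ℕ × List ℕ => True) (fun q => Tc q.2 + q.2.1.length * q.1.val)
      (fun q => recMul conv q.1.val q.2.1 q.2.2) :=
  tc_recFold (TU.val TC.id.fst) (TU.length TC.id.snd.fst)
    (h.comp TC.id.snd (fun _ _ => trivial) (Bud.self.mono (fun _ _ => Nat.le_add_right _ _)))
    (Bud.self.mono (fun _ _ => Nat.le_add_left _ _))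

/-! ### parameters and sizes -/

theorem tc_tup {p : α → Par} (hp : TC D T p) : TC D T (fun x => (p x).tup) :=
  hp.recode (fun _ _ => rfl)

theorem tu_k {p : α → Par} (hp : TC D T p) : TU D T (fun x => (p x).k) := (tc_tup hp).fst

theorem tu_d {p : α → Par} (hp : TC D T p) : TU D T (fun x => (p x).d) := (tc_tup hp).snd.fst

theorem tu_P {p : α → Par} (hp : TC D T p) : TU D T (fun x => (p x).P) :=
  (tc_tup hp).snd.snd.snd

/-- the polynomial that bounds all the parameters -/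
def U (p : Par) : ℕ := (p.lr + 1) ^ 4

theorem le_U {p : Par} (hp : p.Ok) :
    1 ≤ U p ∧ p.lr ≤ U p ∧ p.k ≤ U p ∧ p.d ≤ U p ∧ p.P ≤ U p ∧ p.k * p.d ≤ U p := by
  have h1 : p.lr + 1 ≤ U p := Nat.le_self_pow (by norm_num) _
  have h2 := hp.k_le
  have h3 := hp.kd_le
  have h4 : p.P ≤ U p := hp.P_le
  have h5 : p.d ≤ p.k * p.d := Nat.le_mul_of_pos_left _ hp.k_pos
  omega

theorem sz_par_le {p : Par} (hp : p.Ok) : sz p ≤ 10 * U p := by
  have := le_U hp
  rw [sz_par]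
  omega

theorem pow_U_le (c k : ℕ) : ∃ C, ∀ p : Par, (c * U p) ^ k ≤ C * p.r := by
  refine ⟨c ^ k * ((4 * k).factorial * 2 ^ (4 * k)), fun p => ?_⟩
  rw [mul_pow, U, ← pow_mul, mul_assoc]
  exact Nat.mul_le_mul_left _ (pow_le_factorial_mul_two_pow p.lr (4 * k))

theorem N_mul_r_le {p : Par} (hp : p.Ok) : p.N * p.r ≤ p.vol :=
  Nat.le_mul_of_pos_right _ (by have := hp.P_ge; omega)

theorem r_le_vol {p : Par} (hp : p.Ok) : p.r ≤ p.vol :=
  (Nat.le_mul_of_pos_left _ p.N_pos).trans (N_mul_r_le hp)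

theorem N_mul_P_le (p : Par) : p.N * p.P ≤ p.vol :=
  Nat.mul_le_mul_right _ (Nat.le_mul_of_pos_right _ p.r_pos)

theorem P_le_vol (p : Par) : p.P ≤ p.vol :=
  (Nat.le_mul_of_pos_left _ p.N_pos).trans (N_mul_P_le p)

theorem sz_M_le (p : Par) : sz p.M ≤ p.P :=
  sz_le_of_lt_two_pow (Nat.sub_lt (by positivity) one_pos)

theorem sz_rec_le {p : Par} {x : List ℕ} (h : WF p.r p.M x) : sz x ≤ p.r * (2 * p.P + 1) := by
  rw [← h.1]
  exact sz_list_le (fun c hc => (sz_nat_mono (h.2 c hc).le).trans (sz_M_le p))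

theorem sz_arr_le {p : Par} (hp : p.Ok) {l : Ar} (h : p.WF l) : sz l ≤ 7 * p.vol := by
  have h1 := sz_list_le (fun x hx => sz_rec_le (h.2 x hx))
  rw [h.1] at h1
  have h2 := N_mul_r_le hp
  have h3 : p.N ≤ p.N * p.r := Nat.le_mul_of_pos_right _ p.r_pos
  have e : p.N * (2 * (p.r * (2 * p.P + 1)) + 1) = 4 * p.vol + 2 * (p.N * p.r) + p.N := by
    unfold Par.vol; ring
  omega

/-! ### twiddle passes -/

theorem tc_twist {E : Par → ℕ → ℕ → ℕ}
    (hE : PTF (fun q : (Par × Un) × ℕ => E q.1.1 q.1.2.val q.2))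
    (hle : ∀ p ρ n, E p ρ n ≤ 2 * p.r) :
    TC (fun x : (Par × Un) × Ar => x.1.1.Ok ∧ x.1.2.val < x.1.1.k ∧ x.1.1.WF x.2)
      (fun x => x.1.1.vol) (fun x => twist x.1.1.M (E x.1.1 x.1.2.val) x.2) := by
  have he : PTF (fun q : (Par × Un) × ℕ => (q.1.1.M, E q.1.1 q.1.2.val q.2)) :=
    PTF.prodMk (ptf_M (PTF.comp PTF.fst PTF.fst)) hE
  refine (TC.idxOp (op := fun (c : ℕ × ℕ) (a : List ℕ) => recRot c.1 c.2 a)
    (e := fun (c : Par × Un) (n : ℕ) => (c.1.M, E c.1 c.2.val n)) tc_rot he TC.id.fst TC.id.snd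
    (fun x => 24 * U x.1.1) (fun x => x.1.1.r * x.1.1.P) 0 (fun x hx => ?_) (fun k => ?_)
    (fun x hx j hj => ?_) (Bud.self.mono (fun x hx => ?_))).of_eq (fun x => ?_)
  · have h1 := sz_par_le hx.1
    have h2 := le_U hx.1
    have h3 := hx.2.1
    rw [hx.2.2.1, Par.N, Nat.size_pow, sz_prod, sz_un]
    omega
  · obtain ⟨C, hC⟩ := pow_U_le 25 k
    refine Bud.of_le_mul C (fun x hx => ?_)
    have h2 := le_U hx.1
    have h3 : (24 * U x.1.1 + 1) ^ k ≤ C * x.1.1.r :=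
      (Nat.pow_le_pow_left (by omega) k).trans (hC x.1.1)
    rw [hx.2.2.1]
    calc x.1.1.N * (24 * U x.1.1 + 1) ^ k ≤ x.1.1.N * (C * x.1.1.r) := Nat.mul_le_mul_left _ h3
      _ = C * (x.1.1.N * x.1.1.r) := by ring
      _ ≤ C * x.1.1.vol := Nat.mul_le_mul_left _ (N_mul_r_le hx.1)
  · have hw := (hx.2.2.2 _ (List.getElem_mem hj)).1
    simp only [hw, zero_mul, add_zero]
    exact ⟨hle _ _ _, Nat.mul_le_mul_left _ (sz_M_le _)⟩
  · rw [hx.2.2.1, Par.vol, mul_assoc]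
  · rw [twist, mapIdx_eq_zipWith, List.zipWith_map_left]

/-! ### rounds -/

section rounds

variable {ok : Par → Prop} {TL : Par → ℕ} {layer : Par × Un × Ar → Ar}

theorem tu_rho : TU (fun q : Par × Ar × ℕ => (ok q.1 ∧ q.1.Ok) ∧ q.1.WF q.2.1 ∧ q.2.2 < q.1.k)
    (fun q => TL q.1 + q.1.vol) (fun q => q.2.2) :=
  TU.ofNat TC.id.snd.snd ((tu_k TC.id.fst).bud.mono (fun _ h => h.2.2.le))

theorem tc_fStep
    (hl : TC (fun x : Par × Un × Ar => ok x.1 ∧ x.2.1.val < x.1.k ∧ x.1.WF x.2.2)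
      (fun x => TL x.1) layer) (hL : ∀ p, ok p → LayOK layer p) :
    TC (fun q : Par × Ar × ℕ => (ok q.1 ∧ q.1.Ok) ∧ q.1.WF q.2.1 ∧ q.2.2 < q.1.k)
      (fun q => TL q.1 + q.1.vol) (fun q => fStep layer q.1 q.2.1 q.2.2) := by
  have h1 := hl.comp (f := fun q : Par × Ar × ℕ => (q.1, Un.mk (q.1.k - 1 - q.2.2), q.2.1))
    (TC.id.fst.prodMk (TC.prodMk (((tu_k TC.id.fst).sub (TU.const 1)).sub
      (tu_rho (ok := ok) (TL := TL))) TC.id.snd.fst))
    (fun q h => ⟨h.1.1, by have := h.2.2; dsimp only; omega, h.2.1⟩)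
    (Bud.self.mono (fun _ _ => Nat.le_add_right _ _))
  exact (tc_twist (E := twE) ptf₂_twE twE_le).comp
    (f := fun q : Par × Ar × ℕ => ((q.1, Un.mk q.2.2),
      layer (q.1, Un.mk (q.1.k - 1 - q.2.2), q.2.1)))
    ((TC.id.fst.prodMk tu_rho).prodMk h1)
    (fun q h => ⟨h.1.2, h.2.2, (hL _ h.1.1 _ _ (by have := h.2.2; omega) h.2.1).1⟩)
    (Bud.self.mono (fun _ _ => Nat.le_add_left _ _))

theorem tc_iStep
    (hl : TC (fun x : Par × Un × Ar => ok x.1 ∧ x.2.1.val < x.1.k ∧ x.1.WF x.2.2)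
      (fun x => TL x.1) layer) :
    TC (fun q : Par × Ar × ℕ => (ok q.1 ∧ q.1.Ok) ∧ q.1.WF q.2.1 ∧ q.2.2 < q.1.k)
      (fun q => TL q.1 + q.1.vol) (fun q => iStep layer q.1 q.2.1 q.2.2) := by
  have h1 := (tc_twist (E := itwE) ptf₂_itwE itwE_le).comp
    (f := fun q : Par × Ar × ℕ => ((q.1, Un.mk q.2.2), q.2.1))
    ((TC.id.fst.prodMk (tu_rho (ok := ok) (TL := TL))).prodMk TC.id.snd.fst)
    (fun q h => ⟨h.1.2, h.2.2, h.2.1⟩) (Bud.self.mono (fun _ _ => Nat.le_add_left _ _))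
  exact hl.comp (f := fun q : Par × Ar × ℕ => (q.1, Un.mk (q.1.k - 1 - q.2.2),
      twist q.1.M (itwE q.1 q.2.2) q.2.1))
    (TC.id.fst.prodMk (TC.prodMk (((tu_k TC.id.fst).sub (TU.const 1)).sub tu_rho) h1))
    (fun q h => ⟨h.1.1, by have := h.2.2; dsimp only; omega, WFA.twist h.2.1 _⟩)
    (Bud.self.mono (fun _ _ => Nat.le_add_right _ _))

theorem foldl_ctx (step : Par → Ar → ℕ → Ar) (p : Par) (l : Ar) (L : List ℕ) :
    L.foldl (fun (s : Par × Ar) ρ => (s.1, step s.1 s.2 ρ)) (p, l) = (p, L.foldl (step p) l) := by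
  induction L generalizing l with
  | nil => rfl
  | cons ρ L ih => simp [ih]

/-- a sequence of at most `k` rounds -/
theorem tc_rounds {step : Par → Ar → ℕ → Ar} {S : Par → ℕ}
    (hs : TC (fun q : Par × Ar × ℕ => (ok q.1 ∧ q.1.Ok) ∧ q.1.WF q.2.1 ∧ q.2.2 < q.1.k)
      (fun q => S q.1 + q.1.vol) (fun q => step q.1 q.2.1 q.2.2))
    (hw : ∀ p l ρ, ok p → p.Ok → p.WF l → p.WF (step p l ρ))
    {p : α → Par} {l : α → Ar} {L : α → List ℕ} (hp : TC D T p) (hl : TC D T l) (hL : TC D T L)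
    (h : ∀ x, D x → (ok (p x) ∧ (p x).Ok) ∧ (p x).WF (l x))
    (h' : ∀ x, (L x).length ≤ (p x).k ∧ ∀ ρ ∈ L x, ρ < (p x).k)
    (hb : Bud D T (fun x => (p x).k * (S (p x) + (p x).vol))) :
    TC D T (fun x => (L x).foldl (step (p x)) (l x)) := by
  obtain ⟨C, hC⟩ := pow_U_le 21 1
  have h1 : TC (fun q : (Par × Ar) × ℕ => (ok q.1.1 ∧ q.1.1.Ok) ∧ q.1.1.WF q.1.2 ∧ q.2 < q.1.1.k)
      (fun q => S q.1.1 + q.1.1.vol) (fun q => (q.1.1, step q.1.1 q.1.2 q.2)) :=
    TC.id.fst.fst.prodMk (hs.comp (f := fun q : (Par × Ar) × ℕ => (q.1.1, q.1.2, q.2))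
      (TC.id.fst.fst.prodMk (TC.id.fst.snd.prodMk TC.id.snd)) (fun _ h => h) Bud.self)
  refine (TC.foldl_inv (f := fun (s : Par × Ar) ρ => (s.1, step s.1 s.2 ρ)) h1 (hp.prodMk hl) hL
    (fun x s => s.1 = p x ∧ (p x).WF s.2) (fun x _ => (C + 8) * (S (p x) + (p x).vol))
    (fun x hx => ⟨rfl, (h x hx).2⟩) (fun x hx s ρ hρ hs => ?_)
    ((hb.const_mul (C + 8)).mono (fun x _ => ?_))).snd.of_eq (fun x => by rw [foldl_ctx])
  · obtain ⟨q, a⟩ := s
    obtain ⟨rfl, ha⟩ := hs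
    have hx' := (h x hx).1
    refine ⟨⟨hx', ha, (h' x).2 ρ hρ⟩, ?_, rfl, hw _ _ _ hx'.1 hx'.2 ha⟩
    have h2 := sz_par_le hx'.2
    have h3 := sz_arr_le hx'.2 ha
    have h4 := hC (p x)
    have h5 := Nat.mul_le_mul_left C (r_le_vol hx'.2)
    have h6 := le_U hx'.2
    have e : (C + 8) * (S (p x) + (p x).vol) =
        S (p x) + (C * (p x).vol + 8 * (p x).vol) + (C + 7) * S (p x) := by ring
    rw [pow_one] at h4
    simp only [sz_prod] at h3 ⊢
    omega
  · rw [List.map_const', List.sum_replicate, smul_eq_mul, mul_left_comm]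
    exact Nat.mul_le_mul_left _ (Nat.mul_le_mul_right _ (h' x).1)

theorem tc_rangeK {S : Par → ℕ} {p : α → Par} (hp : TC D T p) (h : ∀ x, D x → (p x).Ok)
    (hb : Bud D T (fun x => (p x).k * (S (p x) + (p x).vol))) :
    TC D T (fun x => List.range (p x).k) :=
  TC.range (tu_k hp) (hb.mono (fun x hx => Nat.mul_le_mul_left _ (by
    have h1 := size_le_self (p x).k
    have h2 : (p x).k ≤ (p x).k * (p x).d := Nat.le_mul_of_pos_right _ (h x hx).d_pos
    have h3 := (h x hx).kd_le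
    have h4 := P_le_vol (p x)
    omega)))

end rounds

end Mn

open Mn

/-- **M4.** -/
theorem mainM4 : MainM4 := by
  rintro ok TL μ ⟨layer, hl, hL⟩ ⟨conv, Tc, hconv, hc, hμ⟩
  have hL' : ∀ p, ok p → LayOK layer p := fun p hp β l hβ h => hL p β l hp hβ h
  refine ⟨fun x => cvL layer conv x.1 x.2.1 x.2.2, ?_, fun p la lb hp ha hb =>
    ⟨wf_cvL hconv hp.2 (hL' p hp.1) ha hb, coef_cvL hconv hp.2 (hL' p hp.1) ha hb⟩⟩
  set D : Par × Ar × Ar → Prop := fun x => (ok x.1 ∧ x.1.Ok) ∧ x.1.WF x.2.1 ∧ x.1.WF x.2.2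
  set T : Par × Ar × Ar → ℕ := fun x => x.1.k * (TL x.1 + x.1.vol) + x.1.N * μ x.1.r x.1.P
  have hp : TC D T (fun x => x.1) := TC.id.fst
  have hb : Bud D T (fun x => x.1.k * (TL x.1 + x.1.vol)) :=
    Bud.self.mono (fun _ _ => Nat.le_add_right _ _)
  have hμb : Bud D T (fun x => x.1.N * μ x.1.r x.1.P) :=
    Bud.self.mono (fun _ _ => Nat.le_add_left _ _)
  have hv : Bud D T (fun x => x.1.vol) := hb.mono (fun x hx =>
    (Nat.le_add_left _ _).trans (Nat.le_mul_of_pos_left _ hx.1.2.k_pos))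
  have hr := tc_rangeK hp (fun x hx => hx.1.2) hb
  have hf : ∀ l : Par × Ar × Ar → Ar, TC D T l → (∀ x, D x → x.1.WF (l x)) →
      TC D T (fun x => fwdL layer x.1 (l x)) := fun l h1 h2 =>
    tc_rounds (tc_fStep hl hL') (fun p l ρ h h' hw => wf_fStep h' (hL' p h) hw ρ) hp h1 hr
      (fun x hx => ⟨hx.1, h2 x hx⟩) (fun x => by simp) hb
  have wa : ∀ x, D x → x.1.WF (fwdL layer x.1 x.2.1) := fun x hx =>
    wf_fwdL hx.1.2 (hL' _ hx.1.1) hx.2.1
  have wb : ∀ x, D x → x.1.WF (fwdL layer x.1 x.2.2) := fun x hx =>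
    wf_fwdL hx.1.2 (hL' _ hx.1.1) hx.2.2
  have hm : TC D T (fun x => mulL conv x.1 (fwdL layer x.1 x.2.1) (fwdL layer x.1 x.2.2)) := by
    refine TC.zipWithCtx_le (f := fun (c : Un) (a b : List ℕ) => recMul conv c.val a b)
      (c := fun x : Par × Ar × Ar => Un.mk x.1.P) (tc_mul hc) (tu_P hp)
      (hf _ TC.id.snd.fst (fun x hx => hx.2.1)) (hf _ TC.id.snd.snd (fun x hx => hx.2.2))
      (fun x => μ x.1.r x.1.P + x.1.r * x.1.P) 0 (fun x hx a ha b hb => ⟨trivial, ?_⟩)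
      ((hμb.add hv).mono (fun x hx => ?_)) (hv.mono (fun x hx => ?_))
    · have h1 := (wa x hx).2 a ha
      have h2 := (wb x hx).2 b hb
      have hlt : ∀ c, c < x.1.M → c < 2 ^ x.1.P := fun c h => h.trans_le (Nat.sub_le _ _)
      have := hμ x.1.r x.1.P a b h1.1.le h2.1.le (fun c hc => hlt c (h1.2 c hc))
        (fun c hc => hlt c (h2.2 c hc))
      simp only [h1.1, zero_mul, add_zero]
      omega
    · rw [(wa x hx).1, mul_add, Par.vol, mul_assoc]
    · rw [(wa x hx).1, sz_un]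
      exact N_mul_P_le _
  have wm : ∀ x, D x → x.1.WF (mulL conv x.1 (fwdL layer x.1 x.2.1) (fwdL layer x.1 x.2.2)) :=
    fun x hx => wf_mulL hconv hx.1.2 (wa x hx) (wb x hx)
  have hi : TC D T (fun x => invL layer x.1
      (mulL conv x.1 (fwdL layer x.1 x.2.1) (fwdL layer x.1 x.2.2))) :=
    tc_rounds (tc_iStep hl) (fun p l ρ h h' hw => wf_iStep h' (hL' p h) hw ρ) hp hm hr.reverse
      (fun x hx => ⟨hx.1, wm x hx⟩) (fun x => by simp) hb
  have wi := fun x (hx : D x) => wf_invL hx.1.2 (hL' _ hx.1.1) (wm x hx)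
  have hkd : TU D T (fun x => x.1.k * x.1.d) :=
    (tu_k hp).mul (tu_d hp) ((tu_P hp).bud.mono (fun x hx => hx.1.2.kd_le))
  have hsz : ∀ x, D x → sz (Un.mk x.1.P, Un.mk (x.1.P - x.1.k * x.1.d)) ≤ 4 * x.1.P := by
    intro x hx
    have := hx.1.2.P_ge
    simp only [sz_prod, sz_un]
    omega
  refine TC.mapCtx_le (f := fun (c : Un × Un) (a : List ℕ) => recShift c.1.val c.2.val a)
    (c := fun x : Par × Ar × Ar => (Un.mk x.1.P, Un.mk (x.1.P - x.1.k * x.1.d))) tc_shift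
    (TC.prodMk (tu_P hp) ((tu_P hp).sub hkd)) hi (fun x => x.1.r * (4 * x.1.P)) 0
    (fun x hx a ha => ⟨trivial, ?_⟩) ((hv.const_mul 4).mono (fun x hx => ?_))
    ((hv.const_mul 4).mono (fun x hx => ?_))
  · simp only [((wi x hx).2 a ha).1, zero_mul, add_zero]
    exact Nat.mul_le_mul_left _ (hsz x hx)
  · rw [(wi x hx).1, Par.vol]
    exact le_of_eq (by ring)
  · rw [(wi x hx).1]
    have h1 := Nat.mul_le_mul_left x.1.N (hsz x hx)
    have h2 := N_mul_P_le x.1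
    rw [mul_left_comm] at h1
    omega

end Crest.Agent.X326.M4
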